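import Vale.Agent.P287D.Cv.Pl
import Vale.Agent.P287D.Va.Bas
import Vale.Agent.P287D.St

/-!
# P287D, curves: Cartier b-divisors, the degree, positivity
-/

set_option linter.unusedSectionVars false

open Set IntermediateField
open Vale.Agent.P019P (CFF Plk dg LL gen)

noncomputable section

namespace Vale.Agent.P287D.Cv

variable {K : Type} [Field K] [Algebra ℂ K] {β γ G : BD K}

theorem I1_eq (β : BD K) : I1 β = ∑ᶠ P, β P := by
  simp [I]

theorem on0 (Λ : BD K) (P : Pl K) : On 0 Λ P := zero_lt_one (α := ℝ)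

theorem I1_smul (c : ℝ) (β : BD K) : I1 (c • β) = c * I1 β := by
  rw [I1_eq, I1_eq, mul_finsum]
  rfl

theorem I1_neg (β : BD K) : I1 (-β) = -I1 β := by
  rw [← neg_one_smul ℝ β, I1_smul, neg_one_mul]

theorem I1_zero : I1 (0 : BD K) = 0 := by simp [I1_eq]

theorem I1_nonneg (h : 0 ≤ β) : 0 ≤ I1 β := by
  rw [I1_eq]
  exact finsum_nonneg h

theorem I1_δ (P : Pl K) : I1 P.δ = 1 := by
  rw [I1_eq, finsum_eq_single _ P fun Q h => Pl.δ_ne h, P.δ_self]

theorem cmb_single (s : Finset K) (c : ℝ) : cmb (Finsupp.single s c) = c • mx s :=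
  Finsupp.sum_single_index (zero_smul _ _)

theorem cmb_add (l m : Finset K →₀ ℝ) : cmb (l + m) = cmb l + cmb m :=
  Finsupp.sum_add_index' (fun _ => zero_smul _ _) fun _ _ _ => add_smul _ _ _

theorem smp_ind {p : BD K → Prop} (h0 : p 0) (h1 : ∀ s (c : ℝ), 0 ≤ c → p (c • mx s))
    (h2 : ∀ a b, p a → p b → p (a + b)) (h : Smp β) : p β := by
  obtain ⟨l, hl, rfl⟩ := h
  exact Finset.sum_induction _ p h2 h0 fun s _ => h1 s _ (hl s)

theorem smp_mx (s : Finset K) {c : ℝ} (hc : 0 ≤ c) : Smp (c • mx s) :=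
  ⟨Finsupp.single s c, Finsupp.single_nonneg.2 hc, (cmb_single s c).symm⟩

theorem smp_add (h : Smp β) (h' : Smp γ) : Smp (β + γ) := by
  obtain ⟨l, hl, rfl⟩ := h
  obtain ⟨m, hm, rfl⟩ := h'
  exact ⟨l + m, add_nonneg hl hm, (cmb_add l m).symm⟩

theorem smp_zero : Smp (0 : BD K) := ⟨0, le_rfl, Finsupp.sum_zero_index.symm⟩

theorem smp_smul (h : Smp β) {c : ℝ} (hc : 0 ≤ c) : Smp (c • β) :=
  smp_ind (p := fun β => Smp (c • β)) (by rw [smul_zero]; exact smp_zero)
    (fun s d hd => by rw [smul_smul]; exact smp_mx s (mul_nonneg hc hd))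
    (fun a b ha hb => by rw [smul_add]; exact smp_add ha hb) h

theorem mx_car (s : Finset K) : mx s ∈ Car K := Submodule.subset_span ⟨s, rfl⟩

theorem smp_car (h : Smp β) : β ∈ Car K :=
  smp_ind (zero_mem _) (fun s c _ => Submodule.smul_mem _ c (mx_car s)) (fun _ _ => add_mem) h

theorem dv_prn (f : K) : dv f ∈ Prn K := Submodule.subset_span ⟨f, rfl⟩

theorem prn_smp (h : β ∈ Prn K) : Smp β := by
  suffices H : ∀ c : ℝ, Smp (c • β) by simpa using H 1
  induction h using Submodule.span_induction with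
  | mem x hx =>
    obtain ⟨f, rfl⟩ := hx
    intro c
    rcases le_total 0 c with h | h
    · rw [dv_eq_mx]
      exact smp_mx _ h
    · have := smp_mx {f} (neg_nonneg.2 h)
      rwa [mx_single, neg_smul_neg] at this
  | zero => exact fun c => by rw [smul_zero]; exact smp_zero
  | add a b _ _ ha hb => exact fun c => by rw [smul_add]; exact smp_add (ha c) (hb c)
  | smul d a _ ha => exact fun c => by rw [smul_smul]; exact ha _

theorem smp_eff (h : Smp β) : Eff β := by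
  refine smp_ind (p := Eff) ⟨0, le_rfl, by simp⟩ (fun s c hc => ?_) ?_ h
  · obtain ⟨u, f, -, h1, h2⟩ := exists_one_mem s
    refine ⟨c • mx u, smul_nonneg hc (mx_nonneg h1), ?_⟩
    rw [← smul_sub, h2, add_sub_cancel_left]
    exact Submodule.smul_mem _ c (dv_prn f)
  · rintro a b ⟨A, h1, h2⟩ ⟨B, h3, h4⟩
    refine ⟨A + B, add_nonneg h1 h3, ?_⟩
    rw [add_sub_add_comm]
    exact add_mem h2 h4

theorem carZ_car (h : β ∈ CarZ K) : β ∈ Car K :=
  (AddSubgroup.closure_le (Car K).toAddSubgroup).2 Submodule.subset_span h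

section

variable [CFF ℂ K]

theorem exists_mx {D : Plk ℂ K →₀ ℤ} (h : 2 * (gen ℂ K : ℤ) ≤ dg D) : ∃ s, mx s = bd D := by
  obtain ⟨s, hs⟩ := (Submodule.fg_iff_finiteDimensional _).2 (P019P.LL_finite (k := ℂ) D)
  refine ⟨s, funext fun P => ?_⟩
  obtain ⟨z, h0, h1, h2⟩ := P025H492.exists_exact (pl P) h
  have h3 : z ∈ Submodule.span ℂ (s : Set K) := hs ▸ P019P.mem_LL.2 (Or.inr h1)
  have h4 := P.le_mz_of_span h3 h0
  have h5 : Nz s := nz_iff_span.2 fun e => h0 (by rwa [e] at h3)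
  have h6 := P.mz_le h5 (k := D (pl P)) fun f hf f0 => by
    have h7 : f ∈ LL ℂ D := hs ▸ Submodule.subset_span hf
    have h8 := (P019P.mem_LL.1 h7).resolve_left f0 (pl P)
    rw [ord_pl] at h8
    omega
  rw [ord_pl] at h2
  rw [mx_apply, bd_apply]
  congr 1
  omega

theorem bd_carZ (D : Plk ℂ K →₀ ℤ) : bd D ∈ CarZ K := by
  obtain ⟨E, hE⟩ := P019P.exists_dg_eq ℂ K (2 * gen ℂ K + |dg D|)
  obtain ⟨s, hs⟩ := exists_mx (D := D + E) (by
    have := neg_abs_le (dg D)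
    rw [map_add]
    omega)
  obtain ⟨u, hu⟩ := exists_mx (D := E) (by
    have := abs_nonneg (dg D)
    omega)
  have e : bd D = mx s - mx u := by rw [hs, hu, map_add, add_sub_cancel_right]
  rw [e]
  exact sub_mem (AddSubgroup.subset_closure ⟨s, rfl⟩) (AddSubgroup.subset_closure ⟨u, rfl⟩)

theorem mx_fin (s : Finset K) : (Function.support (mx s)).Finite := by
  refine (s.finite_toSet.biUnion fun f _ => bd_fin (P019P.dv ℂ f)).subset fun P hP => ?_
  by_cases h : Nz s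
  · obtain ⟨f, hf, -, e⟩ := P.exists_mz h
    refine mem_biUnion hf fun h0 => hP ?_
    rw [bd_dv, dv_apply] at h0
    rw [mx_apply, e, Int.cast_neg, h0, neg_zero]
  · exact absurd (by rw [mx_of_not h]; rfl) hP

theorem carZ_iff_bd : β ∈ CarZ K ↔ ∃ D, bd D = β := by
  refine ⟨fun h => ?_, fun ⟨D, e⟩ => e ▸ bd_carZ D⟩
  refine (AddSubgroup.closure_le bd.range).2 ?_ h
  rintro _ ⟨s, rfl⟩
  exact exists_bd (mx_fin s) (int_mx s)

theorem δ_bd (P : Pl K) : P.δ = bd (Finsupp.single (pl P) 1) := by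
  rw [bd_single, Int.cast_one, one_smul]

theorem I1_bd (D : Plk ℂ K →₀ ℤ) : I1 (bd D) = dg D := by rw [I1_eq, finsum_bd]

theorem H0_bd (D : Plk ℂ K →₀ ℤ) : H0 (bd D) = LL ℂ D := by
  ext f
  rw [mem_H0, P019P.mem_LL, Sec, ← bd_dv, ← map_add, ← map_zero bd, bd_le]
  refine or_congr_right (forall_congr' fun P => ?_)
  rw [Finsupp.add_apply, P019P.dv_apply, Finsupp.zero_apply]
  omega

theorem h0_bd (D : Plk ℂ K →₀ ℤ) : h0 (bd D) = Module.finrank ℂ (LL ℂ D) := by rw [h0, H0_bd]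

end

variable (hK : FF K 1)

include hK

theorem ne_pl : Nonempty (Pl K) := by
  have := cff hK
  exact (P019P.nonempty_Plk ℂ K).map pl.symm

theorem δ_carZ (P : Pl K) : P.δ ∈ CarZ K := by
  have := cff hK
  rw [δ_bd]
  exact bd_carZ _

/-- the residue fields are the constants -/
theorem κ_surj (P : Pl K) : Function.Surjective (algebraMap ℂ P.κ) := by
  have := cff hK
  exact cst_surj P.toPlace P.con

theorem car_iff : β ∈ Car K ↔ (Function.support β).Finite := by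
  have := cff hK
  refine ⟨fun h => ?_, fun h => ?_⟩
  · induction h using Submodule.span_induction with
    | mem x hx =>
      obtain ⟨s, rfl⟩ := hx
      exact mx_fin s
    | zero => simp
    | add a b _ _ ha hb => exact (ha.union hb).subset (Function.support_add a b)
    | smul c a _ ha => exact ha.subset (Function.support_const_smul_subset c a)
  · have e : β = ∑ P ∈ h.toFinset, β P • P.δ := by
      funext Q
      rw [Finset.sum_apply, Finset.sum_eq_single Q (fun P _ hP => by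
        rw [Pi.smul_apply, Pl.δ_ne hP.symm, smul_zero]) fun hQ => by
          rw [h.mem_toFinset, Function.mem_support, not_not] at hQ
          rw [hQ, zero_smul, Pi.zero_apply], Pi.smul_apply, Q.δ_self, smul_eq_mul, mul_one]
    rw [e]
    exact sum_mem fun P _ => Submodule.smul_mem _ _ (carZ_car (δ_carZ hK P))

theorem carZ_iff : β ∈ CarZ K ↔ β ∈ Car K ∧ IsZ β := by
  have := cff hK
  rw [carZ_iff_bd, car_iff hK]
  exact ⟨fun ⟨D, e⟩ => e ▸ ⟨bd_fin D, fun _ => ⟨_, rfl⟩⟩, fun h => exists_bd h.1 h.2⟩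

theorem I1_add (h : β ∈ Car K) (h' : γ ∈ Car K) : I1 (β + γ) = I1 β + I1 γ := by
  rw [I1_eq, I1_eq, I1_eq]
  exact finsum_add_distrib ((car_iff hK).1 h) ((car_iff hK).1 h')

theorem I1_sub (h : β ∈ Car K) (h' : γ ∈ Car K) : I1 (β - γ) = I1 β - I1 γ := by
  rw [sub_eq_add_neg, I1_add hK h (neg_mem h'), I1_neg, sub_eq_add_neg]

theorem I1_sum {ι : Type*} (s : Finset ι) {a : ι → BD K} (h : ∀ i ∈ s, a i ∈ Car K) :
    I1 (∑ i ∈ s, a i) = ∑ i ∈ s, I1 (a i) := by
  classical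
  induction s using Finset.induction_on with
  | empty => simpa using I1_zero
  | insert i s hi ih =>
    have h' : ∀ j ∈ s, a j ∈ Car K := fun j hj => h j (Finset.mem_insert_of_mem hj)
    rw [Finset.sum_insert hi, Finset.sum_insert hi,
      I1_add hK (h i (Finset.mem_insert_self _ _)) (sum_mem h'), ih h']

theorem I1_mono (h : β ∈ Car K) (h' : γ ∈ Car K) (e : β ≤ γ) : I1 β ≤ I1 γ := by
  rw [← sub_nonneg, ← I1_sub hK h' h]
  exact I1_nonneg (sub_nonneg.2 e)

theorem le_I1 (h : β ∈ Car K) (e : 0 ≤ β) (P : Pl K) : β P ≤ I1 β := by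
  rw [I1_eq]
  exact single_le_finsum P ((car_iff hK).1 h) e

theorem eq_zero_of_I1 (h : β ∈ Car K) (e : 0 ≤ β) (h0 : I1 β ≤ 0) : β = 0 :=
  funext fun P => le_antisymm ((le_I1 hK h e P).trans h0) (e P)

theorem eq_of_I1 (h : β ∈ Car K) (h' : γ ∈ Car K) (e : β ≤ γ) (h0 : I1 γ ≤ I1 β) : β = γ :=
  (sub_eq_zero.1 (eq_zero_of_I1 hK (sub_mem h' h) (sub_nonneg.2 e)
    (by rwa [I1_sub hK h' h, sub_nonpos]))).symm

theorem I1_int (h : β ∈ CarZ K) : ∃ n : ℤ, I1 β = n := by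
  have := cff hK
  obtain ⟨D, rfl⟩ := carZ_iff_bd.1 h
  exact ⟨_, I1_bd D⟩

theorem I1_dv (f : K) : I1 (dv f) = 0 := by
  have := cff hK
  rw [← bd_dv, I1_bd, P019P.dg_dv, Int.cast_zero]

theorem I1_prn (h : β ∈ Prn K) : I1 β = 0 := by
  induction h using Submodule.span_induction with
  | mem x hx =>
    obtain ⟨f, rfl⟩ := hx
    exact I1_dv hK f
  | zero => exact I1_zero
  | add a b h1 h2 ha hb =>
    rw [I1_add hK (smp_car (prn_smp h1)) (smp_car (prn_smp h2)), ha, hb, add_zero]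
  | smul c a _ ha => rw [I1_smul, ha, mul_zero]

theorem rep_car (h : β ∈ Car K) (r : Rep β G) : G ∈ Car K := by
  simpa using add_mem (smp_car (prn_smp r.2)) h

theorem I1_rep (h : β ∈ Car K) (r : Rep β G) : I1 G = I1 β := by
  rw [← sub_eq_zero, ← I1_sub hK (rep_car hK h r) h, I1_prn hK r.2]

/-- the degree of a function -/
theorem I1_pair [DecidableEq K] {f : K} (hf : ∀ a : ℂ, f ≠ algebraMap ℂ K a) :
    I1 (mx {1, f}) = Module.finrank ℂ⟮f⟯ K := by
  have := cff hK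
  have e : mx {1, f} = bd (P019P.pol ℂ f) := by
    funext P
    rw [mx_one_pair, bd_apply, P019P.pol_apply, ord_pl, Int.cast_max, Int.cast_neg, Int.cast_zero]
    rfl
  rw [e, I1_bd, P019P.dg_pol hf, Int.cast_natCast]

theorem smp_of_pos (h : β ∈ Car K) (h0 : 0 < I1 β) : Smp β := by
  have := cff hK
  obtain ⟨O⟩ := ne_pl hK
  obtain ⟨g, hg⟩ : ∃ g : ℕ, g = 2 * gen ℂ K + 1 := ⟨_, rfl⟩
  have g0 : (0 : ℝ) < g := by rw [hg]; positivity
  have k : ∀ (D : Plk ℂ K →₀ ℤ) (c ε : ℝ), dg D = 0 → 0 ≤ c → 0 < ε →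
      Smp (c • bd D + ε • O.δ) := by
    intro D c ε hD hc hε
    obtain ⟨N, hN⟩ := exists_nat_gt (c * g / ε)
    have N0 : (0 : ℝ) < N := lt_of_le_of_lt (by positivity) hN
    obtain ⟨s, hs⟩ := exists_mx (D := N • D + Finsupp.single (pl O) (g : ℤ)) (by
      rw [map_add, map_nsmul, hD, P019P.dg_sgl, smul_zero]
      omega)
    obtain ⟨u, hu⟩ := exists_mx (D := Finsupp.single (pl O) (g : ℤ)) (by
      rw [P019P.dg_sgl]
      omega)
    have e : c • bd D + ε • O.δ = (c / N) • mx s + ((ε - c * g / N) / g) • mx u := by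
      rw [hs, hu, map_add, map_nsmul, bd_single, ← Nat.cast_smul_eq_nsmul ℝ, Int.cast_natCast]
      match_scalars <;> field_simp <;> ring
    rw [e]
    refine smp_add (smp_mx s (by positivity)) (smp_mx u (div_nonneg ?_ g0.le))
    rw [div_lt_iff₀ hε] at hN
    rw [sub_nonneg, div_le_iff₀ N0]
    linarith
  have H : ∀ c ε : ℝ, 0 < ε → Smp (c • (β - I1 β • O.δ) + ε • O.δ) := by
    clear h0
    induction h using Submodule.span_induction with
    | mem x hx =>
      obtain ⟨s, rfl⟩ := hx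
      obtain ⟨D, hD⟩ := exists_bd (mx_fin s) (int_mx s)
      intro c ε hε
      have e : mx s - I1 (mx s) • O.δ = bd (D - Finsupp.single (pl O) (dg D)) := by
        rw [map_sub, bd_single, ← hD, I1_bd]
      have e0 : dg (D - Finsupp.single (pl O) (dg D)) = 0 := by
        rw [map_sub, P019P.dg_sgl, sub_self]
      rw [e]
      rcases le_total 0 c with hc | hc
      · exact k _ c ε e0 hc hε
      · have := k _ (-c) ε (by rw [map_neg, e0, neg_zero]) (neg_nonneg.2 hc) hε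
        rwa [map_neg, neg_smul_neg] at this
    | zero =>
      intro c ε hε
      simpa [I1_zero] using k 0 0 ε (map_zero _) le_rfl hε
    | add a b h1 h2 ha hb =>
      intro c ε hε
      have := smp_add (ha c _ (half_pos hε)) (hb c _ (half_pos hε))
      rw [I1_add hK h1 h2]
      refine (congrArg Smp ?_).mp this
      module
    | smul d a _ ha =>
      intro c ε hε
      rw [I1_smul]
      refine (congrArg Smp ?_).mp (ha (c * d) ε hε)
      module
  simpa using H 1 _ h0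

theorem eff_iff (h : β ∈ Car K) : Eff β ↔ 0 < I1 β ∨ β ∈ Prn K := by
  refine ⟨fun ⟨G, r⟩ => ?_, fun k => smp_eff (k.elim (smp_of_pos hK h) prn_smp)⟩
  refine or_iff_not_imp_left.2 fun h0 => ?_
  have e := eq_zero_of_I1 hK (rep_car hK h r) r.1 (by rw [I1_rep hK h r]; exact not_lt.1 h0)
  simpa [e] using r.2

theorem smp_iff (h : β ∈ Car K) : Smp β ↔ 0 < I1 β ∨ β ∈ Prn K :=
  ⟨fun k => (eff_iff hK h).1 (smp_eff k), fun k => k.elim (smp_of_pos hK h) prn_smp⟩

theorem eff_nonneg (h : β ∈ Car K) (e : Eff β) : 0 ≤ I1 β :=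
  ((eff_iff hK h).1 e).elim le_of_lt fun k => (I1_prn hK k).ge

theorem I1_mx (s : Finset K) : 0 ≤ I1 (mx s) :=
  eff_nonneg hK (mx_car s) (smp_eff (by simpa using smp_mx s zero_le_one))

theorem exists_pos : ∃ s : Finset K, 0 < I1 (mx s) := by
  have := cff hK
  obtain ⟨E, hE⟩ := P019P.exists_dg_eq ℂ K (2 * gen ℂ K + 1)
  obtain ⟨s, hs⟩ := exists_mx (D := E) (by omega)
  refine ⟨s, ?_⟩
  rw [hs, I1_bd, hE]
  positivity

theorem psef_iff (h : β ∈ Car K) : Psef β ↔ 0 ≤ I1 β := by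
  refine ⟨fun ⟨s, hs⟩ => ?_, fun h0 => ?_⟩
  · refine le_of_forall_pos_le_add fun ε hε => ?_
    have h1 := I1_mx hK s
    have h2 := eff_nonneg hK (add_mem h (Submodule.smul_mem _ _ (mx_car s)))
      (hs (ε / (I1 (mx s) + 1)) (by positivity))
    rw [I1_add hK h (Submodule.smul_mem _ _ (mx_car s)), I1_smul] at h2
    have h3 : ε / (I1 (mx s) + 1) * I1 (mx s) ≤ ε := by
      rw [div_mul_eq_mul_div, div_le_iff₀ (by positivity)]
      nlinarith
    linarith
  · obtain ⟨s, hs⟩ := exists_pos hK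
    refine ⟨s, fun ε hε => (eff_iff hK (add_mem h (Submodule.smul_mem _ _ (mx_car s)))).2
      (Or.inl ?_)⟩
    rw [I1_add hK h (Submodule.smul_mem _ _ (mx_car s)), I1_smul]
    positivity

theorem nef_iff : Nef β ↔ β ∈ Car K ∧ 0 ≤ I1 β := by
  refine ⟨fun ⟨s, hs⟩ => ?_, fun ⟨h, h0⟩ => ?_⟩
  · have h : β ∈ Car K := by
      simpa using sub_mem (smp_car (hs 1 one_pos)) (Submodule.smul_mem _ 1 (mx_car s))
    exact ⟨h, (psef_iff hK h).1 ⟨s, fun ε hε => smp_eff (hs ε hε)⟩⟩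
  · obtain ⟨s, hs⟩ := exists_pos hK
    refine ⟨s, fun ε hε => smp_of_pos hK (add_mem h (Submodule.smul_mem _ _ (mx_car s))) ?_⟩
    rw [I1_add hK h (Submodule.smul_mem _ _ (mx_car s)), I1_smul]
    positivity

theorem big_iff (h : β ∈ Car K) : Big β ↔ 0 < I1 β := by
  refine ⟨fun k => ?_, fun h0 s => ?_⟩
  · obtain ⟨s, hs⟩ := exists_pos hK
    obtain ⟨ε, hε, e⟩ := k s
    have h2 := eff_nonneg hK (sub_mem h (Submodule.smul_mem _ _ (mx_car s))) e
    rw [I1_sub hK h (Submodule.smul_mem _ _ (mx_car s)), I1_smul] at h2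
    have := mul_pos hε hs
    linarith
  · have h1 := I1_mx hK s
    refine ⟨I1 β / (I1 (mx s) + 1), by positivity,
      (eff_iff hK (sub_mem h (Submodule.smul_mem _ _ (mx_car s)))).2 (Or.inl ?_)⟩
    rw [I1_sub hK h (Submodule.smul_mem _ _ (mx_car s)), I1_smul, sub_pos, div_mul_eq_mul_div,
      div_lt_iff₀ (by positivity)]
    nlinarith

theorem num_iff : Num β ↔ β ∈ Car K ∧ I1 β = 0 := by
  rw [Num, nef_iff hK, nef_iff hK, I1_neg]
  exact ⟨fun h => ⟨h.1.1, by linarith [h.1.2, h.2.2]⟩,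
    fun h => ⟨⟨h.1, h.2.ge⟩, neg_mem h.1, by rw [h.2, neg_zero]⟩⟩

theorem isB_iff : IsB 0 β ↔ β ∈ Car K := by
  rw [car_iff hK]
  refine ⟨fun h => ?_, fun h s _ => h.subset fun P hP => hP.2⟩
  obtain ⟨s, hs⟩ := exists_pos hK
  exact (h s ((big_iff hK (mx_car s)).2 hs)).subset fun P hP => ⟨on0 _ P, hP⟩

theorem dsc_of_pos {Λ : BD K} (hΛ : Λ ∈ Car K) (h0 : 0 < I1 Λ) (h : β ∈ Car K) : Dsc Λ β := by
  have h1 := abs_nonneg (I1 β)
  have h2 : I1 Λ / (|I1 β| + 1) * |I1 β| < I1 Λ := by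
    rw [div_mul_eq_mul_div, div_lt_iff₀ (by positivity)]
    nlinarith
  have h3 : 0 < I1 Λ / (|I1 β| + 1) := by positivity
  have h4 := mul_le_mul_of_nonneg_left (le_abs_self (I1 β)) h3.le
  have h5 := mul_le_mul_of_nonneg_left (neg_abs_le (I1 β)) h3.le
  refine ⟨_, h3, smp_of_pos hK (add_mem hΛ (Submodule.smul_mem _ _ h)) ?_,
    smp_of_pos hK (sub_mem hΛ (Submodule.smul_mem _ _ h)) ?_⟩
  · rw [I1_add hK hΛ (Submodule.smul_mem _ _ h), I1_smul]
    linarith
  · rw [I1_sub hK hΛ (Submodule.smul_mem _ _ h), I1_smul]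
    linarith

theorem ampOn_iff {Λ : BD K} (hΛ : Λ ∈ Car K) (h0 : 0 < I1 Λ) (h : β ∈ Car K) :
    AmpOn Λ β ↔ 0 < I1 β := by
  refine ⟨fun ⟨_, ε, hε, e⟩ => ?_, fun k => ⟨dsc_of_pos hK hΛ h0 h, I1 β / (I1 Λ + 1),
    by positivity, smp_of_pos hK (sub_mem h (Submodule.smul_mem _ _ hΛ)) ?_⟩⟩
  · have h2 := eff_nonneg hK (smp_car e) (smp_eff e)
    rw [I1_sub hK h (Submodule.smul_mem _ _ hΛ), I1_smul] at h2
    have := mul_pos hε h0
    linarith
  · rw [I1_sub hK h (Submodule.smul_mem _ _ hΛ), I1_smul, sub_pos, div_mul_eq_mul_div,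
      div_lt_iff₀ (by positivity)]
    nlinarith

/-- the row `INT.nef1` -/
theorem nef1 (β : BD K) (h : IsB 0 β) :
    β ∈ Car K ∧ (Nef β ↔ 0 ≤ I1 β) ∧ (Big β ↔ 0 < I1 β) ∧ (0 < I1 β → Smp β) :=
  have k := (isB_iff hK).1 h
  ⟨k, (nef_iff hK).trans (and_iff_right k), big_iff hK k, smp_of_pos hK k⟩

end Vale.Agent.P287D.Cv
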