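import Vale.Agent.P287D.Cv.Deg
import Vale.Agent.P287D.Pb.Bas

/-!
# P287D, curves: the theorems of Riemann and Roch and of Hurwitz, genus zero
-/

set_option linter.unusedSectionVars false

open Set IntermediateField
open Vale.Agent.P019P (CFF Plk dg LL gen)

noncomputable section

namespace Vale.Agent.P287D.Cv

variable {K : Type} [Field K] [Algebra ℂ K] {β γ G : BD K}

/-- the integral part -/
def fl (β : BD K) : BD K := fun P => (⌊β P⌋ : ℝ)

theorem fl_le (β : BD K) : fl β ≤ β := fun _ => Int.floor_le _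

theorem H0_fl (β : BD K) : H0 (fl β) = H0 β := by
  ext f
  rw [mem_H0, mem_H0]
  exact sec_floor

theorem ruled_iff : Ruled (⊥ : IntermediateField ℂ K) ↔
    ∃ t : K, (∀ a : ℂ, t ≠ algebraMap ℂ K a) ∧ ℂ⟮t⟯ = ⊤ := by
  have e : ∀ t : K, adjoin (⊥ : IntermediateField ℂ K) {t} = ⊤ ↔ ℂ⟮t⟯ = ⊤ := fun t => by
    rw [← restrictScalars_eq_top_iff (K := ℂ), restrictScalars_adjoin_eq_sup, bot_sup_eq]
  have al : Algebra.IsAlgebraic ℂ (⊥ : IntermediateField ℂ K) := inferInstance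
  refine exists_congr fun t => ?_
  rw [e]
  refine and_congr_left fun _ => ⟨fun h a ha => h (ha ▸ (isAlgebraic_algebraMap a).tower_top _),
    fun h k => ?_⟩
  have h1 : IsIntegral ℂ t := (k.restrictScalars ℂ).isIntegral
  obtain ⟨a, ha⟩ := minpoly.mem_range_of_degree_eq_one ℂ t
    (IsAlgClosed.degree_eq_one_of_irreducible ℂ (minpoly.irreducible h1))
  exact h a ha.symm

theorem pg_eq [CFF ℂ K] : pg K 1 = gen ℂ K := by
  obtain ⟨x, hx, e⟩ := exists_cn (K := K)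
  rw [pg, e, h0_bd, P297Y.Crr.l_wdv hx]

section

variable (hK : FF K 1)

include hK

theorem fl_carZ (h : β ∈ Car K) : fl β ∈ CarZ K :=
  (carZ_iff hK).2 ⟨(car_iff hK).2 (((car_iff hK).1 h).subset fun P hP h0 => hP (by
    rw [fl, h0, Int.floor_zero, Int.cast_zero])), fun _ => ⟨_, rfl⟩⟩

theorem H0_fin (h : β ∈ Car K) : Module.Finite ℂ (H0 β) := by
  have := cff hK
  obtain ⟨D, e⟩ := carZ_iff_bd.1 (fl_carZ hK h)
  rw [← H0_fl, ← e, H0_bd]
  infer_instance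

theorem H0_eq_bot (h : β ∈ Car K) (h0 : I1 β < 0) : H0 β = ⊥ := by
  refine eq_bot_iff.2 fun f hf => (mem_H0.1 hf).resolve_right fun k => ?_
  have := I1_nonneg k
  rw [I1_add hK (smp_car (prn_smp (dv_prn f))) h, I1_dv hK] at this
  linarith

theorem h0_eq_zero (h : β ∈ Car K) (k : I1 β < 0) : h0 β = 0 := by
  rw [h0, H0_eq_bot hK h k, finrank_bot]

theorem h0_zero : h0 (0 : BD K) = 1 := by
  have := cff hK
  rw [← map_zero bd, h0_bd, P019P.l_zero]

theorem const_of_sec {f : K} (h : Sec 0 f) : ∃ a : ℂ, f = algebraMap ℂ K a := by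
  have := cff hK
  refine P019P.LL_zero_le (k := ℂ) ?_
  rw [← H0_bd, map_zero, mem_H0]
  exact h

theorem h0_sub_le (h : β ∈ CarZ K) (h' : γ ∈ CarZ K) (e : β ≤ γ) :
    (h0 γ : ℝ) - h0 β ≤ I1 γ - I1 β := by
  have := cff hK
  obtain ⟨D, rfl⟩ := carZ_iff_bd.1 h
  obtain ⟨E, rfl⟩ := carZ_iff_bd.1 h'
  rw [h0_bd, h0_bd, I1_bd, I1_bd]
  exact_mod_cast P019P.l_sub_le (bd_le.1 e)

theorem h0_le (h : β ∈ Car K) : (h0 β : ℝ) ≤ max (I1 β + 1) 0 := by
  rcases lt_or_ge (I1 (fl β)) 0 with k | k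
  · rw [h0, ← H0_fl, H0_eq_bot hK (carZ_car (fl_carZ hK h)) k, finrank_bot, Nat.cast_zero]
    exact le_max_right _ _
  obtain ⟨O⟩ := ne_pl hK
  obtain ⟨n, hn⟩ := I1_int hK (fl_carZ hK h)
  have h1 : ((n + 1 : ℤ) : ℝ) • O.δ ∈ CarZ K := by
    rw [Int.cast_smul_eq_zsmul]
    exact zsmul_mem (δ_carZ hK O) _
  have h2 := sub_mem (fl_carZ hK h) h1
  have h3 : I1 (fl β - ((n + 1 : ℤ) : ℝ) • O.δ) = -1 := by
    rw [I1_sub hK (carZ_car (fl_carZ hK h)) (carZ_car h1), I1_smul, I1_δ, hn]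
    push_cast
    ring
  have h4 := h0_sub_le hK h2 (fl_carZ hK h) (sub_le_self _ (smul_nonneg (by
    rw [hn] at k
    push_cast
    linarith) O.δ_nonneg))
  have h5 := I1_mono hK (carZ_car (fl_carZ hK h)) h (fl_le β)
  rw [h0_eq_zero hK (carZ_car h2) (by rw [h3]; norm_num), h3, h0, H0_fl, ← h0] at h4
  refine le_max_of_le_left ?_
  push_cast at h4
  linarith

theorem cn_carZ : cn K 1 ∈ CarZ K := by
  have := cff hK
  obtain ⟨x, -, e⟩ := exists_cn (K := K)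
  rw [e]
  exact bd_carZ _

theorem cn_car : cn K 1 ∈ Car K := carZ_car (cn_carZ hK)

theorem I1_cn : I1 (cn K 1) = 2 * pg K 1 - 2 := by
  have := cff hK
  obtain ⟨x, hx, e⟩ := exists_cn (K := K)
  rw [pg_eq, e, I1_bd, P297Y.Crr.dg_wdv hx]
  push_cast
  rfl

/-- **Riemann and Roch** -/
theorem rr (h : β ∈ CarZ K) : (h0 β : ℝ) - h0 (cn K 1 - β) = I1 β + 1 - pg K 1 := by
  have := cff hK
  obtain ⟨x, hx, e⟩ := exists_cn (K := K)
  obtain ⟨D, rfl⟩ := carZ_iff_bd.1 h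
  rw [pg_eq, e, ← map_sub, h0_bd, h0_bd, I1_bd]
  exact_mod_cast P297Y.Crr.RR_wdv hx D

theorem riemann (h : β ∈ CarZ K) : I1 β + 1 - pg K 1 ≤ h0 β := by
  rw [← rr hK h]
  exact sub_le_self _ (Nat.cast_nonneg _)

theorem rr_large (h : β ∈ CarZ K) (k : 2 * pg K 1 - 2 < I1 β) :
    (h0 β : ℝ) = I1 β + 1 - pg K 1 := by
  rw [← rr hK h, h0_eq_zero hK (sub_mem (cn_car hK) (carZ_car h)) (by
    rw [I1_sub hK (cn_car hK) (carZ_car h), I1_cn hK]
    linarith), Nat.cast_zero, sub_zero]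

theorem h0_adj (h : β ∈ CarZ K) (k : 0 < I1 β) :
    (h0 (cn K 1 + β) : ℝ) = I1 β + pg K 1 - 1 := by
  have e := I1_add hK (cn_car hK) (carZ_car h)
  rw [I1_cn hK] at e
  rw [rr_large hK (add_mem (cn_carZ hK) h) (by linarith), e]
  ring

/-- no form has a single simple pole -/
theorem H0_cn_add_δ (P : Pl K) : H0 (cn K 1 + P.δ) = H0 (cn K 1) := by
  have := H0_fin hK (add_mem (cn_car hK) (carZ_car (δ_carZ hK P)))
  refine (Submodule.eq_of_le_of_finrank_eq (H0_mono (le_add_of_nonneg_right P.δ_nonneg)) ?_).symm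
  have e := h0_adj hK (δ_carZ hK P) (by rw [I1_δ]; exact one_pos)
  rw [I1_δ, add_sub_cancel_left, Nat.cast_inj] at e
  exact e.symm

/-- divisors of large degree are free -/
theorem free (h : β ∈ CarZ K) (k : 2 * pg K 1 ≤ I1 β) : ∃ s, mx s = β := by
  have := cff hK
  obtain ⟨D, rfl⟩ := carZ_iff_bd.1 h
  rw [I1_bd, pg_eq] at k
  exact exists_mx (by exact_mod_cast k)

/-- a form `dx` differs from the canonical b-divisor by a principal one -/
theorem kap_sub {y : Fin 1 → K} (hy : ∀ a : ℂ, y 0 ≠ algebraMap ℂ K a) :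
    ∃ f : K, f ≠ 0 ∧ kap y = cn K 1 + dv f := by
  have := cff hK
  obtain ⟨x, hx, e⟩ := exists_cn (K := K)
  obtain ⟨u, u0, hu⟩ := P297Y.Crr.wdv_eq_can hx
  obtain ⟨v, v0, hv⟩ := P297Y.Crr.wdv_eq_can hy
  refine ⟨v / u, div_ne_zero v0 u0, ?_⟩
  rw [kap_eq hy, e, hu, hv, map_add, map_add, bd_dv, bd_dv, dv_div v0 u0]
  abel

theorem g0_of_neg (h : I1 (cn K 1) < 0) : pg K 1 = 0 := h0_eq_zero hK (cn_car hK) h

theorem g0_of_le (h : γ ∈ Car K) (e : cn K 1 ≤ γ) (k : I1 γ < 0) : pg K 1 = 0 :=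
  g0_of_neg hK ((I1_mono hK (cn_car hK) h e).trans_lt k)

theorem g0_of_ft (h : FT K 0) : pg K 1 = 0 := by
  obtain ⟨Λ, Γ, -, -, h1, h2, -, -, h3⟩ := h
  have h4 := (big_iff hK (neg_mem h1)).1 h3
  rw [I1_neg] at h4
  exact g0_of_le hK h1 (fun P => sub_nonpos.1 (h2 P (on0 Λ P))) (by linarith)

theorem h0_g0 (g : pg K 1 = 0) (h : β ∈ CarZ K) (k : -1 ≤ I1 β) : (h0 β : ℝ) = I1 β + 1 := by
  rw [rr_large hK h (by rw [g]; push_cast; linarith), g, Nat.cast_zero, sub_zero]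

theorem exists_sec (h : 0 < h0 β) : ∃ f : K, f ≠ 0 ∧ 0 ≤ dv f + β := by
  obtain ⟨f, hf, f0⟩ := Submodule.exists_mem_ne_zero_of_ne_bot (p := H0 β) fun e => by
    rw [h0, e, finrank_bot] at h
    exact lt_irrefl _ h
  exact ⟨f, f0, (mem_H0.1 hf).resolve_left f0⟩

theorem dv_of_g0 (g : pg K 1 = 0) (h : β ∈ CarZ K) (k : I1 β = 0) : ∃ f : K, f ≠ 0 ∧ β = dv f := by
  have h1 := h0_g0 hK g h (by rw [k]; norm_num)
  rw [k, zero_add, Nat.cast_eq_one] at h1
  obtain ⟨f, f0, hf⟩ := exists_sec hK (β := β) (by omega)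
  have c := smp_car (prn_smp (dv_prn f))
  have e := eq_zero_of_I1 hK (add_mem c (carZ_car h)) hf (by
    rw [I1_add hK c (carZ_car h), I1_dv hK, k, add_zero])
  exact ⟨f⁻¹, inv_ne_zero f0, by rw [dv_inv]; exact eq_neg_of_add_eq_zero_right e⟩

theorem sub_prn_of_g0 (g : pg K 1 = 0) (O : Pl K) (h : β ∈ Car K) : β - I1 β • O.δ ∈ Prn K := by
  induction h using Submodule.span_induction with
  | mem x hx =>
    obtain ⟨s, rfl⟩ := hx
    have h1 : mx s ∈ CarZ K := AddSubgroup.subset_closure ⟨s, rfl⟩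
    obtain ⟨n, hn⟩ := I1_int hK h1
    have h2 : I1 (mx s) • O.δ ∈ CarZ K := by
      rw [hn, Int.cast_smul_eq_zsmul]
      exact zsmul_mem (δ_carZ hK O) _
    obtain ⟨f, -, e⟩ := dv_of_g0 hK g (sub_mem h1 h2) (by
      rw [I1_sub hK (mx_car s) (carZ_car h2), I1_smul, I1_δ, mul_one, sub_self])
    rw [e]
    exact dv_prn f
  | zero => simp [I1_zero]
  | add a b h1 h2 ha hb =>
    rw [I1_add hK h1 h2, add_smul, ← sub_add_sub_comm]
    exact add_mem ha hb
  | smul c a _ ha =>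
    rw [I1_smul, mul_smul, ← smul_sub]
    exact Submodule.smul_mem _ c ha

theorem prn_of_g0 (g : pg K 1 = 0) (h : β ∈ Car K) (k : I1 β = 0) : β ∈ Prn K := by
  obtain ⟨O⟩ := ne_pl hK
  simpa [k] using sub_prn_of_g0 hK g O h

theorem smp_iff_g0 (g : pg K 1 = 0) (h : β ∈ Car K) : Smp β ↔ 0 ≤ I1 β :=
  ⟨fun k => eff_nonneg hK h (smp_eff k), fun k => (smp_iff hK h).2
    (k.lt_or_eq.imp_right fun e => prn_of_g0 hK g h e.symm)⟩

/-- in genus zero there is a coordinate with a given pole -/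
theorem exists_coord [DecidableEq K] (g : pg K 1 = 0) (O : Pl K) :
    ∃ t : K, (∀ a : ℂ, t ≠ algebraMap ℂ K a) ∧ ℂ⟮t⟯ = ⊤ ∧ mx {1, t} = O.δ := by
  have h1 := h0_g0 hK g (δ_carZ hK O) (by rw [I1_δ]; norm_num)
  have h2 : H0 (0 : BD K) ≠ H0 O.δ := fun e => by
    rw [h0, ← e, ← h0, h0_zero hK, I1_δ] at h1
    norm_num at h1
  obtain ⟨t, ht, h3⟩ := SetLike.exists_of_lt (lt_of_le_of_ne (H0_mono O.δ_nonneg) h2)
  have h4 : ∀ a : ℂ, t ≠ algebraMap ℂ K a := fun a e => h3 (mem_H0.2 (Or.inr (by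
    rw [e, dv_const, add_zero])))
  have h5 : mx {1, t} ≤ O.δ := mx_le ⟨1, by simp, one_ne_zero⟩ fun f hf => by
    rcases Finset.mem_insert.1 hf with rfl | hf
    · exact sec_one.2 O.δ_nonneg
    · exact Finset.mem_singleton.1 hf ▸ mem_H0.1 ht
  have h6 := I1_mono hK (mx_car _) (carZ_car (δ_carZ hK O)) h5
  have := cff hK
  have := (P019P.finite_of_notMem h4).2
  have h7 : 0 < Module.finrank ℂ⟮t⟯ K := Module.finrank_pos
  rw [I1_pair hK h4, I1_δ, Nat.cast_le_one] at h6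
  have h8 : Module.finrank ℂ⟮t⟯ K = 1 := by omega
  refine ⟨t, h4, ?_, eq_of_I1 hK (mx_car _) (carZ_car (δ_carZ hK O)) h5 (by
    rw [I1_pair hK h4, I1_δ, h8, Nat.cast_one])⟩
  have h9 := (IntermediateField.bot_eq_top_iff_finrank_eq_one (F := ℂ⟮t⟯) (E := K)).2 h8
  rw [← restrictScalars_bot_eq_self ℂ⟮t⟯, h9, restrictScalars_top]

theorem g0_of_coord {t : K} (ht : ∀ a : ℂ, t ≠ algebraMap ℂ K a) (e : ℂ⟮t⟯ = ⊤) : pg K 1 = 0 := by
  have := cff hK
  have h1 : P025H492.wdv ℂ t ≤ -P019P.pol ℂ t := fun P => by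
    rw [P025H492.wdv_apply ht, P025H492.wd, Finsupp.neg_apply, P019P.pol_apply]
    split_ifs with h
    · have h2 := P019P.sum_ord_le (P019P.nc_sub ht (P025H492.vl P t)) {P} fun Q hQ => by
        rw [Finset.mem_singleton.1 hQ]
        exact P025H492.ord_sub_vl_pos ht h
      rw [Finset.sum_singleton, P019P.adjoin_sub_eq, e, IntermediateField.finrank_top] at h2
      omega
    · omega
  have h2 := P019P.dg_mono h1
  rw [P297Y.Crr.dg_wdv ht, map_neg, P019P.dg_pol ht, e, IntermediateField.finrank_top] at h2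
  rw [pg_eq]
  omega

theorem g0_iff : pg K 1 = 0 ↔ Ruled (⊥ : IntermediateField ℂ K) := by
  classical
  rw [ruled_iff]
  obtain ⟨O⟩ := ne_pl hK
  exact ⟨fun g => (exists_coord hK g O).imp fun _ h => ⟨h.1, h.2.1⟩,
    fun ⟨_, h1, h2⟩ => g0_of_coord hK h1 h2⟩

end

/-- the row **CRV** -/
theorem crv : CRV := fun _ _ _ hK => ⟨I1_cn hK, g0_iff hK, fun _ h1 h2 =>
  rr hK ((carZ_iff hK).2 ⟨(isB_iff hK).1 h2, h1⟩)⟩

section cover

variable {K' : Type} [Field K'] [Algebra ℂ K'] [Algebra K K'] [IsScalarTower ℂ K K']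
  (hK : FF K 1) (hK' : FF K' 1)

include hK hK'

theorem fin_cover : FiniteDimensional K K' := by
  have := cff hK'
  obtain ⟨x, hx, -⟩ := (cff hK).ex
  exact P025H492.finite_of_transcendental (k := ℂ) hx

theorem pb_apply (β : BD K) (P : Pl K') :
    haveI := cff hK
    haveI := cff hK'
    haveI := fin_cover hK hK'
    Lies (algebraMap K K') P (pl.symm (P025H492.down K (pl P))) ∧
      pb (algebraMap K K') β P =
        P025H492.ram K (pl P) * β (pl.symm (P025H492.down K (pl P))) := by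
  have := cff hK
  have := cff hK'
  have := fin_cover hK hK'
  have h : Lies (algebraMap K K') P (pl.symm (P025H492.down K (pl P))) := fun _ => Iff.rfl
  refine ⟨h, ?_⟩
  rw [h.pb, ← ord_pl, P025H492.ord_algebraMap]
  congr 1
  rw [← pl.apply_symm_apply (P025H492.down K (pl P)), ord_pl, pl.apply_symm_apply, Pl.ord_t]
  simp

theorem exists_lies (P : Pl K') : ∃ Q, Lies (algebraMap K K') P Q := ⟨_, (pb_apply hK hK' 0 P).1⟩

theorem ok : Ok (algebraMap K K') := fun P => Or.inr (exists_lies hK hK' P)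

theorem I1_pb (h : β ∈ Car K) : I1 (pb (algebraMap K K') β) = Module.finrank K K' * I1 β := by
  have := cff hK
  have := cff hK'
  have := fin_cover hK hK'
  induction h using Submodule.span_induction with
  | mem x hx =>
    obtain ⟨s, rfl⟩ := hx
    obtain ⟨D, hD⟩ := exists_bd (mx_fin s) (int_mx s)
    have e : pb (algebraMap K K') (bd D) = bd (P025H492.pull K' D) := funext fun P => by
      rw [(pb_apply hK hK' _ P).2, bd_apply, bd_apply, P025H492.pull_apply, pl.apply_symm_apply]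
      push_cast
      rfl
    rw [← hD, e, I1_bd, I1_bd, P025H492.dg_pull]
    push_cast
    rfl
  | zero => rw [pb_zero, I1_zero, I1_zero, mul_zero]
  | add a b h1 h2 ha hb =>
    rw [pb_add, I1_add hK' ((ok hK hK').car h1) ((ok hK hK').car h2), ha, hb, I1_add hK h1 h2,
      mul_add]
  | smul c a _ ha => rw [pb_smul, I1_smul, I1_smul, ha, mul_left_comm]

/-- **Hurwitz**; `pb φ 1 - 1` is the ramification divisor -/
theorem hurwitz : pb (algebraMap K K') 1 - 1 ∈ CarZ K' ∧ 0 ≤ pb (algebraMap K K') 1 - 1 ∧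
    I1 (cn K' 1) = Module.finrank K K' * I1 (cn K 1) + I1 (pb (algebraMap K K') 1 - 1) := by
  have := cff hK
  have := cff hK'
  have := fin_cover hK hK'
  have e : pb (algebraMap K K') 1 - 1 = bd (P025H492.ramDiv ℂ K K') := funext fun P => by
    rw [Pi.sub_apply, (pb_apply hK hK' _ P).2, bd_apply, P025H492.ramDiv_apply]
    simp
  rw [e, I1_cn hK, I1_cn hK', I1_bd, pg_eq, pg_eq, ← map_zero bd, bd_le]
  exact ⟨bd_carZ _, P025H492.ramDiv_nonneg, by exact_mod_cast P025H492.riemann_hurwitz ℂ K K'⟩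

theorem pg_le : pg K 1 ≤ pg K' 1 := by
  have := cff hK
  have := cff hK'
  have := fin_cover hK hK'
  rw [pg_eq, pg_eq]
  exact P025H492.gen_le ℂ K K'

/-- **Lüroth** -/
theorem g0_down (g : pg K' 1 = 0) : pg K 1 = 0 := Nat.le_zero.1 (g ▸ pg_le hK hK')

end cover

end Vale.Agent.P287D.Cv
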