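import Vale.Agent.P287D.Cv.Rr

/-!
# P287D, curves: fields, dimensions, Picard numbers
-/

set_option linter.unusedSectionVars false

open Set IntermediateField

noncomputable section

namespace Vale.Agent.P287D.Cv

variable {K : Type} [Field K] [Algebra ℂ K] {Λ β Γ : BD K} (hK : FF K 1)

include hK

theorem fld_top (h : Λ ∈ Car K) (k : 0 < I1 Λ) : fld Λ = ⊤ :=
  eq_top_iff.2 fun _ _ => subset_adjoin _ _ ((big_iff hK h).2 k _)

theorem fld_bot (h : Λ ∈ Car K) (k : I1 Λ ≤ 0) : fld Λ = ⊥ := by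
  classical
  refine eq_bot_iff.2 (adjoin_le_iff.2 ?_)
  rintro f ⟨ε, hε, e⟩
  by_contra c
  have hf : ∀ a : ℂ, f ≠ algebraMap ℂ K a := fun a ha =>
    c (ha ▸ (⊥ : IntermediateField ℂ K).algebraMap_mem a)
  have h1 := eff_nonneg hK (sub_mem h (Submodule.smul_mem _ _ (mx_car _))) e
  have := cff hK
  have := (P019P.finite_of_notMem hf).2
  have h2 : (0 : ℝ) < Module.finrank ℂ⟮f⟯ K := Nat.cast_pos.2 Module.finrank_pos
  rw [I1_sub hK h (Submodule.smul_mem _ _ (mx_car _)), I1_smul] at h1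
  have h3 := mul_pos hε h2
  rw [← I1_pair hK hf] at h3
  have h4 : ε * I1 (mx {1, f}) ≤ 0 := by
    refine le_trans (le_of_eq ?_) ((sub_nonneg.1 h1).trans k)
    congr
  linarith

theorem dim_one (h : Λ ∈ Car K) (k : 0 < I1 Λ) : dim Λ = 1 := by
  rw [dim, fld_top hK h k, (topEquiv (F := ℂ) (E := K)).trdeg_eq, trdeg_one hK, map_one]

theorem dim_zero (h : Λ ∈ Car K) (k : I1 Λ ≤ 0) : dim Λ = 0 := by
  have : Algebra.IsAlgebraic ℂ (⊥ : IntermediateField ℂ K) := inferInstance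
  rw [dim, fld_bot hK h k, trdeg_eq_zero, map_zero]

theorem pos_iff_dim (h : Λ ∈ Car K) : 0 < I1 Λ ↔ dim Λ = 1 :=
  ⟨dim_one hK h, fun e => by_contra fun k => by
    rw [dim_zero hK h (not_lt.1 k)] at e
    exact zero_ne_one e⟩

theorem dsc_car (h : Dsc Λ β) : β ∈ Car K := by
  obtain ⟨ε, hε, h1, h2⟩ := h
  have e : β = (2 * ε)⁻¹ • ((Λ + ε • β) - (Λ - ε • β)) := by
    match_scalars <;> field_simp <;> ring
  rw [e]
  exact Submodule.smul_mem _ _ (sub_mem (smp_car h1) (smp_car h2))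

theorem dsc_iff (h : Λ ∈ Car K) (k : 0 < I1 Λ) : Dsc Λ β ↔ β ∈ Car K :=
  ⟨dsc_car hK, dsc_of_pos hK h k⟩

theorem dsc_prn (h : Λ ∈ Car K) (k : I1 Λ ≤ 0) (d : Dsc Λ β) : β ∈ Prn K := by
  have c := dsc_car hK d
  obtain ⟨ε, hε, h1, h2⟩ := d
  have a1 := eff_nonneg hK (smp_car h1) (smp_eff h1)
  have a2 := eff_nonneg hK (smp_car h2) (smp_eff h2)
  have b1 := I1_add hK h (Submodule.smul_mem _ ε c)
  have b2 := I1_sub hK h (Submodule.smul_mem _ ε c)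
  have p1 := ((smp_iff hK (smp_car h1)).1 h1).resolve_left (by linarith)
  have p2 := ((smp_iff hK (smp_car h2)).1 h2).resolve_left (by linarith)
  have e : β = (2 * ε)⁻¹ • ((Λ + ε • β) - (Λ - ε • β)) := by
    match_scalars <;> field_simp <;> ring
  rw [e]
  exact Submodule.smul_mem _ _ (sub_mem p1 p2)

theorem qf (h : Λ ∈ Car K) (k : 0 < I1 Λ) : QF 0 Λ := fun P _ =>
  ⟨P.δ, ⟨1, one_pos, by simpa using δ_carZ hK P⟩,
    dsc_of_pos hK h k (carZ_car (δ_carZ hK P)), fun _ _ => rfl⟩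

theorem hull_eq {Z : BD K} (h : Hull 0 Λ Z β) : β = Z := funext fun P => h.2 P (on0 Λ P)

theorem term (h : Λ ∈ Car K) (k : 0 < I1 Λ) : Term 0 Λ (cn K 1) :=
  ⟨smp_of_pos hK h k, (big_iff hK h).2 k, ⟨dsc_of_pos hK h k (cn_car hK), fun _ _ => rfl⟩,
    fun P c => absurd (on0 Λ P) c⟩

theorem cle_iff (h : Λ ∈ Car K) (k : 0 < I1 Λ) {P Q : Pl K} : CLe Λ P Q ↔ P = Q := by
  refine ⟨fun c => by_contra fun n => ?_, fun e _ _ => e ▸ id⟩
  have h1 : Λ - (I1 Λ / 2) • Q.δ ∈ Car K :=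
    sub_mem h (Submodule.smul_mem _ _ (carZ_car (δ_carZ hK Q)))
  have h2 := smp_of_pos hK h1 (by
    rw [I1_sub hK h (Submodule.smul_mem _ _ (carZ_car (δ_carZ hK Q))), I1_smul, I1_δ]
    linarith)
  have h3 : ∀ β : BD K, Smp β → ∃ G, Rep β G ∧ G P = 0 := fun β hβ => by
    refine smp_ind (p := fun β => ∃ G, Rep β G ∧ G P = 0) ⟨0, ⟨le_rfl, by simp⟩, rfl⟩
      (fun s c hc => ?_) ?_ hβ
    · obtain ⟨u, hu, e⟩ := exists_nz s
      obtain ⟨f, hf, f0, e1⟩ := P.exists_mz hu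
      refine ⟨c • (dv f + mx u), ⟨smul_nonneg hc (dv_add_mx_nonneg hf f0), ?_⟩, ?_⟩
      · rw [← smul_sub, e, add_sub_cancel_right]
        exact Submodule.smul_mem _ c (dv_prn f)
      · rw [Pi.smul_apply, Pi.add_apply, mx_apply, dv_apply, e1, Int.cast_neg, add_neg_cancel,
          smul_zero]
    · rintro a b ⟨A, ⟨a1, a2⟩, a3⟩ ⟨B, ⟨b1, b2⟩, b3⟩
      refine ⟨A + B, ⟨add_nonneg a1 b1, ?_⟩, by rw [Pi.add_apply, a3, b3, add_zero]⟩
      rw [add_sub_add_comm]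
      exact add_mem a2 b2
  obtain ⟨G, ⟨r1, r2⟩, r3⟩ := h3 _ h2
  have h4 := c (G + (I1 Λ / 2) • Q.δ) ⟨add_nonneg r1 (smul_nonneg (by linarith) Q.δ_nonneg), by
    rwa [← sub_add, add_comm, ← add_sub_assoc, add_comm] at r2⟩ (by
      have := r1 Q
      rw [Pi.add_apply, Pi.smul_apply, Q.δ_self, smul_eq_mul, mul_one]
      rw [Pi.zero_apply] at this
      linarith)
  rw [Pi.add_apply, r3, Pi.smul_apply, Pl.δ_ne n, smul_zero, add_zero] at h4
  exact lt_irrefl _ h4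

theorem rho_zero (h : Λ ∈ Car K) (k : I1 Λ ≤ 0) : rho Λ = 0 := by
  have e : Pic Λ = ⊥ := Submodule.span_eq_bot.2 (by
    rintro _ ⟨β, d, rfl⟩
    exact (Submodule.Quotient.mk_eq_zero _).2 (dsc_prn hK h k d))
  rw [rho, e, finrank_bot]

theorem rho_g0 (g : pg K 1 = 0) (h : Λ ∈ Car K) (k : 0 < I1 Λ) : rho Λ = 1 := by
  obtain ⟨O⟩ := ne_pl hK
  have e : Pic Λ = Submodule.span ℝ {(Prn K).mkQ O.δ} := by
    refine le_antisymm (Submodule.span_le.2 ?_) (Submodule.span_mono (singleton_subset_iff.2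
      ⟨_, dsc_of_pos hK h k (carZ_car (δ_carZ hK O)), rfl⟩))
    rintro _ ⟨β, d, rfl⟩
    refine Submodule.mem_span_singleton.2 ⟨I1 β, ?_⟩
    rw [← map_smul, eq_comm]
    exact (Submodule.Quotient.eq _).2 (sub_prn_of_g0 hK g O (dsc_car hK d))
  rw [rho, e]
  refine finrank_span_singleton fun z => ?_
  have := I1_prn hK ((Submodule.Quotient.mk_eq_zero _).1 z)
  rw [I1_δ] at this
  exact one_ne_zero this

theorem ft_of_g0 (g : pg K 1 = 0) : FT K 0 := by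
  have h1 : 0 < I1 (-cn K 1) := by
    rw [I1_neg, I1_cn hK, g]
    norm_num
  have h2 := neg_mem (cn_car hK)
  exact ⟨-cn K 1, cn K 1, smp_of_pos hK h2 h1, (big_iff hK h2).2 h1, cn_car hK,
    fun P _ => by simp [dsc], fun P => by simp [dsc], (nef_iff hK).2 ⟨h2, h1.le⟩,
    (big_iff hK h2).2 h1⟩

end Vale.Agent.P287D.Cv
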