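import Vale.Agent.P287D.Defs
import Vale.Agent.P297Y.An.Crr

/-!
# P287D, curves: the places and the canonical divisor of a function field of one variable
-/

open Set IntermediateField
open Vale.Agent.P297 (Place)
open Vale.Agent.P285N.Brep (jac Fr)
open Vale.Agent.P019P (CFF Plk IsOrd dg LL gen)

set_option linter.unusedSectionVars false

noncomputable section

namespace Vale.Agent.P287D.Cv

variable {K : Type} [Field K] [Algebra ℂ K]

theorem range_one (y : Fin 1 → K) : range y = {y 0} := by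
  ext z
  simp only [mem_range, mem_singleton_iff]
  exact ⟨fun ⟨i, h⟩ => by rw [← h, Subsingleton.elim i 0], fun h => ⟨0, h.symm⟩⟩

theorem cff (h : FF K 1) : CFF ℂ K := by
  obtain ⟨y, h1, h2⟩ := h
  refine ⟨inferInstance, y 0, h1.transcendental 0, ?_⟩
  rw [range_one] at h2
  exact h2

theorem ff [h : CFF ℂ K] : FF K 1 := by
  obtain ⟨x, h1, h2⟩ := h.ex
  refine ⟨fun _ => x, algebraicIndependent_unique_type_iff.2 h1, ?_⟩
  rw [range_one]
  exact h2

theorem trdeg_one (h : FF K 1) : Algebra.trdeg ℂ K = 1 := by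
  obtain ⟨x, h1, h2⟩ := (cff h).ex
  have h3 := (P019P.CFld_basis h1 h2).lift_cardinalMk_eq_trdeg
  simpa using h3.symm

/-- the place in the language of the curves -/
def toK (P : Pl K) : Plk ℂ K := ⟨P.ring, P.con, P297Z.Pl.ring_ne_top _⟩

theorem pl_ext {P Q : Pl K} (h : P.ring = Q.ring) : P = Q := by
  obtain ⟨P, _, _⟩ := P
  obtain ⟨Q, _, _⟩ := Q
  obtain rfl : P = Q := P297Z.Pl.ext' h
  rfl

theorem isOrd (v : Place K) : IsOrd v.ring v.ord where
  zero := P297Z.Pl.ord_zero v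
  mul := fun _ _ => P297Z.Pl.ord_mul v
  add := fun _ _ => P297Z.Pl.min_ord_le_add v
  mem := fun x => by
    by_cases hx : x = 0
    · rw [hx]
      exact ⟨fun _ => Or.inl rfl, fun _ => zero_mem _⟩
    · rw [← P297Z.Pl.ord_nonneg_iff v hx]
      exact ⟨Or.inr, fun h => h.resolve_left hx⟩
  one := (P297Z.Pl.exists_ord_eq_one v).imp fun _ h => h.2

section

variable [CFF ℂ K]

theorem ord_toK (P : Pl K) (z : K) : P019P.ord (toK P) z = P.ord z :=
  congrFun ((P019P.ord_spec (toK P)).unique (isOrd P.toPlace)) z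

theorem dvr (Q : Plk ℂ K) : IsDiscreteValuationRing Q.1 := by
  obtain ⟨π, h0, h1⟩ := P019P.exists_unif Q
  have hm : π ∈ Q.1 := (P019P.mem_iff_ord Q π).2 (Or.inr (by omega))
  have hu : ∀ a : Q.1, a.1 ≠ 0 → P019P.ord Q a.1 = 0 → IsUnit a := fun a ha h =>
    IsUnit.of_mul_eq_one ⟨a.1⁻¹, (P019P.mem_iff_ord Q _).2 (Or.inr (by
      rw [P019P.ord_inv, h, neg_zero]))⟩ (Subtype.ext (mul_inv_cancel₀ ha))
  refine IsDiscreteValuationRing.ofHasUnitMulPowIrreducibleFactorization ⟨⟨π, hm⟩, ⟨?_, ?_⟩, ?_⟩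
  · intro h
    obtain ⟨b, hb⟩ := h.exists_right_inv
    have h2 : π * b.1 = 1 := congrArg Subtype.val hb
    have h3 := P019P.ord_mul Q h0 (right_ne_zero_of_mul_eq_one h2)
    have h4 := P025H492.ord_nonneg_of_mem Q b.2
    rw [h2, P019P.ord_one] at h3
    omega
  · intro a b hab
    have h2 : π = a.1 * b.1 := congrArg Subtype.val hab
    have ha : a.1 ≠ 0 := left_ne_zero_of_mul (h2 ▸ h0)
    have hb : b.1 ≠ 0 := right_ne_zero_of_mul (h2 ▸ h0)
    have h3 := P019P.ord_mul Q ha hb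
    have h4 := P025H492.ord_nonneg_of_mem Q a.2
    have h5 := P025H492.ord_nonneg_of_mem Q b.2
    rw [← h2] at h3
    by_cases h6 : P019P.ord Q a.1 = 0
    · exact Or.inl (hu a ha h6)
    · exact Or.inr (hu b hb (by omega))
  · intro x hx
    have hx0 : x.1 ≠ 0 := fun h => hx (Subtype.ext h)
    obtain ⟨n, hn⟩ := Int.eq_ofNat_of_zero_le (P025H492.ord_nonneg_of_mem Q x.2)
    have hp : π ^ n ≠ 0 := pow_ne_zero _ h0
    have h2 : P019P.ord Q (x.1 * (π ^ n)⁻¹) = 0 := by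
      rw [P019P.ord_mul Q hx0 (inv_ne_zero hp), P019P.ord_inv, P019P.ord_pow, h1, hn]
      ring
    have h3 := hu ⟨_, (P019P.mem_iff_ord Q _).2 (Or.inr h2.ge)⟩
      (mul_ne_zero hx0 (inv_ne_zero hp)) h2
    refine ⟨n, h3.unit, Subtype.ext ?_⟩
    change π ^ n * (x.1 * (π ^ n)⁻¹) = x.1
    field_simp

theorem cst_surj (v : Place K) (h : ∀ c, algebraMap ℂ K c ∈ v.ring) :
    Function.Surjective (cst v h) := by
  intro a
  obtain ⟨z, rfl⟩ := IsLocalRing.residue_surjective a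
  let Q : Plk ℂ K := ⟨v.ring, h, P297Z.Pl.ring_ne_top _⟩
  have ho : P019P.ord Q = v.ord := (P019P.ord_spec Q).unique (isOrd v)
  obtain ⟨c, hc⟩ := P019P.exists_cst Q z.2
  refine ⟨c, ?_⟩
  change IsLocalRing.residue v.ring ⟨algebraMap ℂ K c, h c⟩ = _
  rw [eq_comm, ← sub_eq_zero, ← map_sub, IsLocalRing.residue_eq_zero_iff,
    P297Z.Pl.mem_maximalIdeal_iff]
  rw [ho] at hc
  exact hc.imp (fun h1 => sub_eq_zero.2 h1) id

/-- the place in the language of the b-divisors -/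
def ofK (Q : Plk ℂ K) : Pl K where
  ring := Q.1
  dvr := dvr Q
  con := Q.2.1
  dvl := by
    let := (cst ⟨Q.1, dvr Q⟩ Q.2.1).toAlgebra
    have : Algebra.IsAlgebraic ℂ (IsLocalRing.ResidueField Q.1) := ⟨fun a => by
      obtain ⟨c, rfl⟩ := cst_surj ⟨Q.1, dvr Q⟩ Q.2.1 a
      exact isAlgebraic_algebraMap c⟩
    rw [trdeg_one (K := K) ff, trdeg_eq_zero, zero_add]

/-- the two notions of places agree -/
def pl : Pl K ≃ Plk ℂ K where
  toFun := toK
  invFun := ofK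
  left_inv := fun _ => pl_ext rfl
  right_inv := fun _ => rfl

theorem ord_pl (P : Pl K) (z : K) : P019P.ord (pl P) z = P.ord z := ord_toK P z

theorem mem_pl (P : Pl K) (z : K) : z ∈ (pl P).1 ↔ z ∈ P.ring := Iff.rfl

/-- the b-divisor of a divisor -/
def bd : (Plk ℂ K →₀ ℤ) →+ BD K where
  toFun D := fun P => D (pl P)
  map_zero' := by
    funext P
    simp
  map_add' D E := by
    funext P
    simp

theorem bd_apply (D : Plk ℂ K →₀ ℤ) (P : Pl K) : bd D P = D (pl P) := rfl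

theorem bd_le {D E : Plk ℂ K →₀ ℤ} : bd D ≤ bd E ↔ D ≤ E := by
  refine ⟨fun h Q => ?_, fun h P => ?_⟩
  · have h1 := h (pl.symm Q)
    rw [bd_apply, bd_apply, Equiv.apply_symm_apply] at h1
    exact Int.cast_le.1 h1
  · exact Int.cast_le.2 (h (pl P))

theorem bd_inj : Function.Injective (bd (K := K)) := fun _ _ h =>
  le_antisymm (bd_le.1 h.le) (bd_le.1 h.ge)

theorem bd_dv (f : K) : bd (P019P.dv ℂ f) = dv f := by
  funext P
  rw [bd_apply, P019P.dv_apply, ord_pl]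
  rfl

theorem bd_single (P : Pl K) (n : ℤ) : bd (Finsupp.single (pl P) n) = (n : ℝ) • P.δ := by
  classical
  funext Q
  rw [bd_apply, Pi.smul_apply, Pl.δ, Finsupp.single_apply]
  by_cases h : Q = P
  · simp [h]
  · rw [if_neg (fun h1 => h (pl.injective h1).symm), if_neg h]
    simp

theorem bd_fin (D : Plk ℂ K →₀ ℤ) : (Function.support (bd D)).Finite := by
  refine (D.support.finite_toSet.preimage pl.injective.injOn).subset fun P hP => ?_
  rw [mem_preimage, Finset.mem_coe, Finsupp.mem_support_iff]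
  intro h
  apply hP
  rw [bd_apply, h, Int.cast_zero]

theorem exists_bd {β : BD K} (h : (Function.support β).Finite) (hz : ∀ P, ∃ n : ℤ, β P = n) :
    ∃ D, bd D = β := by
  choose n hn using hz
  refine ⟨Finsupp.ofSupportFinite (fun Q => n (pl.symm Q))
    ((h.preimage pl.symm.injective.injOn).subset fun Q hQ h0 => hQ ?_), ?_⟩
  · rw [hn] at h0
    exact_mod_cast h0
  · funext P
    rw [bd_apply, hn]
    change ((n (pl.symm (pl P)) : ℤ) : ℝ) = _
    rw [Equiv.symm_apply_apply]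

theorem finsum_bd (D : Plk ℂ K →₀ ℤ) : ∑ᶠ P, bd D P = dg D := by
  have h1 : ∑ᶠ P, bd D P = ∑ᶠ Q, (D Q : ℝ) := finsum_comp_equiv (f := fun Q => (D Q : ℝ)) pl
  rw [h1, P019P.dg_apply, Finsupp.sum, Int.cast_sum]
  refine finsum_eq_sum_of_support_subset _ fun Q hQ => ?_
  rw [Finset.mem_coe, Finsupp.mem_support_iff]
  intro h
  apply hQ
  change ((D Q : ℤ) : ℝ) = 0
  rw [h, Int.cast_zero]

theorem nc_of_fr {y : Fin 1 → K} {D : Fin 1 → Derivation ℂ K K} (h : Fr y D) (a : ℂ) :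
    y 0 ≠ algebraMap ℂ K a := by
  intro h1
  have h2 := h.dual 0 0
  rw [h1, Derivation.map_algebraMap] at h2
  simp at h2

theorem exists_fr {x : K} (hx : ∀ a : ℂ, x ≠ algebraMap ℂ K a) :
    ∃ D : Derivation ℂ K K, Fr (fun _ : Fin 1 => x) fun _ => D := by
  obtain ⟨D, hD, -⟩ := P297Y.Crr.exists_ddx hx
  refine ⟨D, fun i j => by rw [hD, if_pos (Subsingleton.elim i j)], ?_⟩
  rw [range_one]
  exact (P019P.finite_of_notMem hx).2

theorem kap_eq {y : Fin 1 → K} (hy : ∀ a : ℂ, y 0 ≠ algebraMap ℂ K a) :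
    kap y = bd (P025H492.wdv ℂ (y 0)) := by
  funext P
  have hex : ∃ q : (Fin 1 → K) × (Fin 1 → Derivation ℂ K K), Ad P q.1 q.2 := by
    obtain ⟨π, h0, h1⟩ := P019P.exists_unif (pl P)
    have hπ := P025H492.nc_of_ord (P := pl P) (z := π) (by omega)
    obtain ⟨D, hD⟩ := exists_fr hπ
    have h2 : D π = 1 := hD.dual 0 0
    refine ⟨⟨fun _ => π, fun _ => D⟩, hD, fun _ =>
      (P019P.mem_iff_ord (pl P) π).2 (Or.inr (by omega)), fun _ f hf => ?_⟩
    have h3 := P025H492.der_mem (D := D) h1 (by rw [h2]; exact one_ne_zero)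
      (P019P.mem_Mge.2 (Or.inr (P025H492.ord_nonneg_of_mem (pl P) hf)))
    rw [h2, P019P.ord_one] at h3
    exact (P019P.mem_iff_ord (pl P) _).2 (P019P.mem_Mge.1 h3)
  rw [kap, dif_pos hex, bd_apply, P025H492.wdv_apply hy]
  obtain ⟨h1, h2, h3⟩ := hex.choose_spec
  generalize hex.choose = q at h1 h2 h3
  obtain ⟨t, D⟩ := q
  have h4 : D 0 (t 0) = 1 := h1.dual 0 0
  have hD : D 0 ≠ 0 := by
    intro h
    rw [h] at h4
    simp at h4
  have h5 : jac D y = D 0 (y 0) := by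
    rw [jac, Matrix.det_unique]
    rfl
  have h6 := P025H492.D_mem hD (P025H492.ord_nonneg_of_mem (pl P) (h2 0))
  obtain ⟨π, h0, hπ⟩ := P019P.exists_unif (pl P)
  have h7 := P025H492.ord_nonneg_of_mem (pl P)
    (h3 0 π ((P019P.mem_iff_ord (pl P) π).2 (Or.inr (by omega))))
  have h8 := P025H492.ordD_eq hD hπ
  have h9 := P025H492.ord_D_eq_wd hD hy (pl P)
  change D 0 (t 0) ∈ _ at h6
  change 0 ≤ P019P.ord (pl P) (D 0 π) at h7
  rw [h4, P019P.mem_Mge, P019P.ord_one] at h6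
  have h10 := h6.resolve_left one_ne_zero
  change ((P.ord (jac D y) : ℤ) : ℝ) = _
  rw [h5, ← ord_pl, h9]
  congr 1
  omega

theorem exists_cn : ∃ x : K, (∀ a : ℂ, x ≠ algebraMap ℂ K a) ∧
    cn K 1 = bd (P025H492.wdv ℂ x) := by
  have hex : ∃ (y : Fin 1 → K) (D : Fin 1 → Derivation ℂ K K), Fr y D := by
    obtain ⟨x, h1, -⟩ := CFF.ex (k := ℂ) (F := K)
    obtain ⟨D, hD⟩ := exists_fr (x := x) fun a h => h1 (h ▸ isAlgebraic_algebraMap a)
    exact ⟨_, _, hD⟩
  obtain ⟨D, hD⟩ := hex.choose_spec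
  refine ⟨hex.choose 0, nc_of_fr hD, ?_⟩
  rw [cn, dif_pos hex, kap_eq (nc_of_fr hD)]

end

end Vale.Agent.P287D.Cv
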